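import Vale.Agent.P271.Stmt
import Vale.Agent.P278.Stmt
import Vale.Agent.P270.Stmt
import Vale.Agent.P270.Main

open scoped Manifold ContDiff
open Vale.Agent.P271.Stmt

theorem Vale.Agent.Results.P270.Hyperbolic.result (n : ℕ) (hn : 1 ≤ n) (X : Type)
    [TopologicalSpace X] [T2Space X] [CompactSpace X] [ConnectedSpace X]
    [ChartedSpace (Fin n → ℂ) X] [IsManifold 𝓘(ℂ, Fin n → ℂ) ω X]
    (h : Vale.Agent.P278S.FormField (Fin n → ℂ) X) (hK : Vale.Agent.P278S.IsKaehler h)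
    (hB : ∀ f : ℂ → X, MDifferentiable 𝓘(ℂ, ℂ) 𝓘(ℂ, Fin n → ℂ) f → ∃ c, ∀ z, f z = c)
    (M : Cocycle X) (hM : IsLineBundle n M) (hN : Vale.Agent.P270S.Nef n h M) :
    Ample n (tensor (canonical n X) M) ∧
      ∃ m, 0 < m ∧ GloballyGenerated n (power (tensor (canonical n X) M) m) := by
  have hA := Vale.Agent.P270.main hn hK hB hM hN
  refine ⟨hA, ?_⟩
  obtain ⟨m, hm, N, s, hs, h0, -⟩ := hA
  refine ⟨m, hm, fun p => ?_⟩
  obtain ⟨i, hi⟩ := hM.cover p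
  obtain ⟨k, hk⟩ := h0 (p, i) p ⟨mem_chart_source _ p, hi⟩
  exact ⟨s k, hs k, (p, i), ⟨mem_chart_source _ p, hi⟩, hk⟩
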